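import Mathlib
import Vale.Agent.Lib.P058.Defs

/-!
# P058 (helper51, second copies of pool jobs J8 and J5c)

Coordinates and the distance formula in `E2`, and finiteness of `Xset n a`.
-/

namespace Vale.Agent.Lib.P058.H51

open Vale.Agent.Lib.P058

theorem mk2_apply (x y : ℂ) : mk2 x y 0 = x ∧ mk2 x y 1 = y := by
  constructor
  · simp [mk2]
  · simp [mk2]

theorem dist_mk2 (x0 x1 y0 y1 : ℂ) :
    dist (mk2 x0 x1) (mk2 y0 y1)
      = Real.sqrt (Complex.normSq (x0 - y0) + Complex.normSq (x1 - y1)) := by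
  rw [EuclideanSpace.dist_eq, Fin.sum_univ_two, (mk2_apply x0 x1).1, (mk2_apply x0 x1).2,
    (mk2_apply y0 y1).1, (mk2_apply y0 y1).2, Complex.dist_eq, Complex.dist_eq,
    Complex.sq_norm, Complex.sq_norm]

theorem eq_mk2 (p : E2) : p = mk2 (p 0) (p 1) := by
  ext i
  fin_cases i
  · exact (mk2_apply (p 0) (p 1)).1.symm
  · exact (mk2_apply (p 0) (p 1)).2.symm

theorem roots_finite (n : ℕ) (hn : 0 < n) : {z : ℂ | z ^ n = 1}.Finite := by
  refine Set.Finite.subset (Polynomial.nthRoots n (1 : ℂ)).toFinset.finite_toSet ?_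
  intro z hz
  have hz' : z ^ n = 1 := hz
  rw [Finset.mem_coe, Multiset.mem_toFinset, Polynomial.mem_nthRoots hn]
  exact hz'

theorem Dorb_finite (n : ℕ) (hn : 0 < n) (a : ℂ) : (Dorb n a).Finite := by
  have hR := roots_finite n hn
  refine Set.Finite.subset
    ((hR.image (fun z => z * a)).union (hR.image (fun z => z * (starRingEnd ℂ) a))) ?_
  rintro u ⟨z, hz, hu | hu⟩
  · exact Or.inl ⟨z, hz, hu.symm⟩
  · exact Or.inr ⟨z, hz, hu.symm⟩

theorem Xset_finite (n : ℕ) (hn : 0 < n) (a : ℂ) : (Xset n a).Finite := by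
  have hD := Dorb_finite n hn a
  refine Set.Finite.subset ((hD.prod hD).image (fun q : ℂ × ℂ => mk2 q.1 q.2)) ?_
  rintro p ⟨h0, h1⟩
  exact ⟨(p 0, p 1), ⟨h0, h1⟩, (eq_mk2 p).symm⟩

end Vale.Agent.Lib.P058.H51
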